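import Vale.Agent.P205.Cone

/-!
From isothermal coordinates and a family of solutions of the flatness equation to an isometric map
of a periodic metric into four-space.
-/

namespace Vale.Agent.P205

open scoped ContDiff

noncomputable section

theorem assemble {E F G : R2 → ℝ}
    (hiso : ∃ (Φ : R2 ≃ R2) (a b : R2) (ρ : R2 → ℝ), ContDiff ℝ ∞ Φ ∧ ContDiff ℝ ∞ Φ.symm ∧
      det2 a b ≠ 0 ∧ (∀ p, Φ (p + (1, 0)) = Φ p + a) ∧ (∀ p, Φ (p + (0, 1)) = Φ p + b) ∧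
      ContDiff ℝ ∞ ρ ∧ Periodic2 (1, 0) (0, 1) ρ ∧ (∀ p, 0 < ρ p) ∧
      ∀ p v, E p * v.1 ^ 2 + 2 * F p * v.1 * v.2 + G p * v.2 ^ 2 = ρ p * sq2 (fderiv ℝ Φ p v))
    (hflat : ∀ (a b : R2) (φ : R2 → ℝ), det2 a b ≠ 0 → ContDiff ℝ ∞ φ → Periodic2 a b φ →
      ∃ ε₀ w, FlatFamily a b φ ε₀ w) :
    ∃ X : R2 → EuclideanSpace ℝ (Fin 4), ContDiff ℝ ∞ X ∧ Periodic2 (1, 0) (0, 1) X ∧
      ∀ p v, ‖fderiv ℝ X p v‖ ^ 2 = E p * v.1 ^ 2 + 2 * F p * v.1 * v.2 + G p * v.2 ^ 2 := by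
  obtain ⟨Φ, a, b, ρ, hΦ, hΦs, hab, hΦa, hΦb, hρ, pρ, hρ0, hmet⟩ := hiso
  set φ : R2 → ℝ := fun z => Real.log (ρ (Φ.symm z)) / 2 with hφdef
  have hφ : ContDiff ℝ ∞ φ := ((hρ.comp hΦs).log fun z => (hρ0 _).ne').div_const 2
  have hsa : ∀ z, Φ.symm (z + a) = Φ.symm z + (1, 0) := fun z => by
    rw [Equiv.symm_apply_eq, hΦa, Equiv.apply_symm_apply]
  have hsb : ∀ z, Φ.symm (z + b) = Φ.symm z + (0, 1) := fun z => by
    rw [Equiv.symm_apply_eq, hΦb, Equiv.apply_symm_apply]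
  have pφ : Periodic2 a b φ :=
    ⟨fun z => by simp only [hφdef, hsa, pρ.1], fun z => by simp only [hφdef, hsb, pρ.2]⟩
  obtain ⟨ε₀, W, hF⟩ := hflat a b φ hab hφ pφ
  obtain ⟨K, hK, pK, hKm⟩ := exists_cone hab hφ pφ hF
  refine ⟨K ∘ Φ, hK.comp hΦ, ⟨fun p => ?_, fun p => ?_⟩, fun p v => ?_⟩
  · simp only [Function.comp_apply, hΦa, pK.1]
  · simp only [Function.comp_apply, hΦb, pK.2]
  rw [fderiv_comp p (hK.differentiable (by simp) _) (hΦ.differentiable (by simp) _),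
    ContinuousLinearMap.comp_apply, hKm, hmet]
  congr 1
  simp only [hφdef, Equiv.symm_apply_apply, mul_div_cancel₀ _ (two_ne_zero (α := ℝ)),
    Real.exp_log (hρ0 p)]

end

end Vale.Agent.P205
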