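import Vale.Agent.P205.Family
import Vale.Agent.P205.Hopf.Main

/-!
The cone over a flat torus in the three-sphere: a conformal metric whose factor admits a family of
solutions of the flatness equation has an isometric map to four-space with the given periods.
-/

namespace Vale.Agent.P205

open scoped ContDiff ComplexConjugate
open Set Complex

noncomputable section

/-- A complex number as a point of the plane. -/
def toR2 : ℂ →L[ℝ] R2 := Complex.reCLM.prod Complex.imCLM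

theorem toR2_apply (z : ℂ) : toR2 z = (z.re, z.im) := rfl

theorem sq2_toR2 (z : ℂ) : sq2 (toR2 z) = ‖z‖ ^ 2 := by
  rw [sq2, toR2_apply, ← Complex.normSq_eq_norm_sq, Complex.normSq_apply]; ring

theorem det2_toR2 (z z' : ℂ) : det2 (toR2 z) (toR2 z') = (conj z * z').im := by
  rw [det2, toR2_apply, toR2_apply]; simp; ring

theorem sq2_smul (r : ℝ) (v : R2) : sq2 (r • v) = r ^ 2 * sq2 v := by
  simp [sq2]; ring

theorem det2_smul (r : ℝ) (v v' : R2) : det2 (r • v) (r • v') = r ^ 2 * det2 v v' := by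
  simp [det2]; ring

theorem exists_cone {a b : R2} (hab : det2 a b ≠ 0) {φ : R2 → ℝ} (hφ : ContDiff ℝ ∞ φ)
    (pφ : Periodic2 a b φ) {ε₀ : ℝ} {W : ℝ → R2 → ℝ} (hF : FlatFamily a b φ ε₀ W) :
    ∃ G : R2 → EuclideanSpace ℝ (Fin 4), ContDiff ℝ ∞ G ∧ Periodic2 a b G ∧
      ∀ p v, ‖fderiv ℝ G p v‖ ^ 2 = Real.exp (2 * φ p) * sq2 v := by
  obtain ⟨ε₁, hε₁, hle, hgood⟩ := exists_good hab hφ pφ hF.pos hF.smooth hF.periodic hF.cont0 hF.contX hF.contY
  set per : R2 → ℝ → ℂ := fun q ε =>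
    period (om1 (W ε) (cov1 ε φ (W ε)) (cov2 ε φ (W ε)))
      (om2 (W ε) (cov1 ε φ (W ε)) (cov2 ε φ (W ε))) (sg (W ε) (cov1 ε φ (W ε)))
      (tau (W ε) (cov1 ε φ (W ε)) (cov2 ε φ (W ε))) q with hper
  have hcont : ∀ q, ContinuousOn (per q) (Icc 0 ε₁) :=
    fun q => continuous_curv hφ hF hε₁.le hle hgood q
  have hzero : ∀ q : R2, per q 0 = (q.1 : ℂ) + (q.2 : ℂ) * I := fun q => by
    have h1 : W 0 = fun _ => 0 := funext hF.zero
    have h2 : cov1 0 φ (W 0) = fun _ => 0 := funext fun q => by simp [cov1]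
    have h3 : cov2 0 φ (W 0) = fun _ => 0 := funext fun q => by simp [cov2]
    simp only [hper, h2, h3]
    rw [h1]
    exact period_zero q
  set gap : ℝ → ℝ := fun ε =>
    |(conj (per a ε) * per b ε).im| - 4 * Real.pi * ‖per a ε‖ * ε with hgap
  have hgap0 : 0 < gap 0 := by
    simp only [hgap, hzero, mul_zero, sub_zero]
    rw [abs_pos]
    convert hab using 1
    simp [det2]; ring
  have hgapc : ContinuousOn gap (Icc 0 ε₁) :=
    (Complex.continuous_im.comp_continuousOn ((Complex.continuous_conj.comp_continuousOn (hcont a)).mul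
      (hcont b))).abs.sub ((continuousOn_const.mul (hcont a).norm).mul continuousOn_id)
  obtain ⟨δ, hδ, hδle, hδgap⟩ : ∃ δ, 0 < δ ∧ δ ≤ ε₁ ∧ ∀ ε ∈ Icc 0 δ, 0 < gap ε := by
    have h := hgapc 0 (left_mem_Icc.2 hε₁.le)
    obtain ⟨r, hr, hball⟩ := Metric.continuousWithinAt_iff.1 h (gap 0) hgap0
    refine ⟨min ε₁ (r / 2), lt_min hε₁ (by linarith), min_le_left _ _, fun ε hε => ?_⟩
    have := hball ⟨hε.1, hε.2.trans (min_le_left _ _)⟩ (by
      rw [Real.dist_eq, sub_zero, abs_of_nonneg hε.1]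
      linarith [hε.2.trans (min_le_right _ _)])
    rw [Real.dist_eq] at this
    linarith [(abs_lt.1 this).1]
  obtain ⟨N, hN⟩ := exists_nat_gt (‖per a δ‖ / (2 * Real.pi * δ))
  have hπ := Real.pi_pos
  have hN0 : (0 : ℝ) < N := lt_of_le_of_lt (by positivity) hN
  obtain ⟨ε, hεI, hεroot⟩ : ∃ ε ∈ Icc (0 : ℝ) δ, ‖per a ε‖ - 2 * Real.pi * N * ε = 0 := by
    have hc : ContinuousOn (fun ε => ‖per a ε‖ - 2 * Real.pi * N * ε) (Icc 0 δ) :=
      ((hcont a).mono (Icc_subset_Icc_right hδle)).norm.sub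
        (continuousOn_const.mul continuousOn_id)
    refine intermediate_value_Icc' hδ.le hc ⟨?_, ?_⟩
    · have := (div_lt_iff₀ (by positivity)).1 hN
      nlinarith
    · simp
  have hε0 : 0 < ε := by
    refine lt_of_le_of_ne hεI.1 fun h0 => ?_
    rw [← h0, hzero, mul_zero, sub_zero, norm_eq_zero] at hεroot
    refine hab ?_
    have h1 : a.1 = 0 := by simpa using congrArg Complex.re hεroot
    have h2 : a.2 = 0 := by simpa using congrArg Complex.im hεroot
    simp [det2, h1, h2]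
  have hε₁' : ε ∈ Icc 0 ε₁ := ⟨hεI.1, hεI.2.trans hδle⟩
  have hε₀' : ε ∈ Icc 0 ε₀ := ⟨hεI.1, hε₁'.2.trans hle⟩
  have hw := hF.smooth ε hε₀'
  have pw := hF.periodic ε hε₀'
  have hg := hgood ε hε₁'
  obtain ⟨pc, pd⟩ := periodic2_cov (ε := ε) hφ hw pφ pw
  obtain ⟨p1, p2, p3, p4⟩ := periodic2_curv hg pw pc pd
  obtain ⟨f, hf, hfnorm, hfa, hfb, -⟩ := exists_developing hab hg.contDiff_om1 hg.contDiff_om2
    hg.contDiff_sg hg.contDiff_tau p1 p2 p3 p4
    (fun p => mul_pos (Real.exp_pos _) (Real.sqrt_pos.2 (hg.one_sub_pos p)))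
    (fun p => by
      have : 0 < tim (W ε) (cov1 ε φ (W ε)) (cov2 ε φ (W ε)) p :=
        div_pos (mul_pos (Real.exp_pos _) (Real.sqrt_pos.2 (hg.disc_pos p)))
          (Real.sqrt_pos.2 (hg.one_sub_pos p))
      simpa [tau] using this)
    (fun p => sub_eq_zero.1 (by
      rw [hg.curvature, resid_cov hφ hw]
      have := hF.flat ε hε₀' p
      rw [FlatEq] at this
      rw [← this, sub_self, mul_zero]))
    (fun p => hg.structure_eq (rel_cov hφ hw))
  change ∀ p, f (p + a) = f p + per a ε at hfa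
  change ∀ p, f (p + b) = f p + per b ε at hfb
  obtain ⟨H, hH, hH1, hHiso, hHa, hHb⟩ :=
    exists_flat_torus (ε⁻¹ • toR2 (per a ε)) (ε⁻¹ • toR2 (per b ε)) N (by exact_mod_cast hN0)
      (by
        rw [sq2_smul, sq2_toR2, sub_eq_zero.1 hεroot]
        field_simp)
      (by
        have h := hδgap ε hεI
        simp only [hgap] at h
        rw [sub_eq_zero.1 hεroot] at h
        rw [det2_smul, det2_toR2, abs_mul, abs_of_nonneg (sq_nonneg _), inv_pow,
          le_inv_mul_iff₀ (by positivity)]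
        linarith)
  set g : R2 → R2 := fun z => ε⁻¹ • toR2 (f z) with hgdef
  have hgs : ContDiff ℝ ∞ g := (toR2.contDiff.comp hf).const_smul ε⁻¹
  set ψ : R2 → ℝ := fun z => ε * Real.exp ((φ + W ε) z) with hψ
  have hψs : ContDiff ℝ ∞ ψ := contDiff_const.mul (contDiff_sum hφ hw).exp
  refine ⟨fun z => ψ z • H (g z), hψs.smul (hH.comp hgs), ⟨fun z => ?_, fun z => ?_⟩, fun p v => ?_⟩
  · simp only [hψ, hgdef, Pi.add_apply, pφ.1, pw.1, hfa, map_add, smul_add, hHa]
  · simp only [hψ, hgdef, Pi.add_apply, pφ.2, pw.2, hfb, map_add, smul_add, hHb]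
  have dg : fderiv ℝ g p v = ε⁻¹ • toR2 (fderiv ℝ f p v) := by
    have h := ((toR2.hasFDerivAt.comp p
      (hf.differentiable (by simp) p).hasFDerivAt).fun_const_smul ε⁻¹).fderiv
    simp only [Function.comp_apply] at h
    rw [h]
    rfl
  have dψ : fderiv ℝ ψ p v = ψ p * fderiv ℝ (φ + W ε) p v := by
    rw [hψ, ((hasFDerivAt_smooth (contDiff_sum hφ hw) p).exp.const_mul ε).fderiv]
    simp; ring
  have dlin : fderiv ℝ (φ + W ε) p v = v.1 * dX (φ + W ε) p + v.2 * dY (φ + W ε) p := by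
    rw [dX, dY, ← smul_eq_mul, ← smul_eq_mul, ← map_smul, ← map_smul, ← map_add]
    simp
  have dH : fderiv ℝ (fun z => H (g z)) p v = fderiv ℝ H (g p) (fderiv ℝ g p v) := by
    rw [show (fun z => H (g z)) = H ∘ g from rfl,
      fderiv_comp p (hH.differentiable (by simp) _) (hgs.differentiable (by simp) _)]
    rfl
  have horth : inner ℝ (H (g p)) (fderiv ℝ H (g p) (fderiv ℝ g p v)) = 0 := by
    have h1 := (hH.differentiable (by simp) (g p)).hasFDerivAt.norm_sq
    have h2 : (fun x => ‖H x‖ ^ 2) = fun _ => (1 : ℝ) := funext fun x => by rw [hH1, one_pow]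
    have h3 : HasFDerivAt (fun x => ‖H x‖ ^ 2) (0 : R2 →L[ℝ] ℝ) (g p) := by
      rw [h2]; exact hasFDerivAt_const _ _
    simpa using congrArg (fun L : R2 →L[ℝ] ℝ => L (fderiv ℝ g p v)) (h1.unique h3)
  have hHg : HasFDerivAt (fun z => H (g z)) (fderiv ℝ (fun z => H (g z)) p) p :=
    ((hH.comp hgs).differentiable (by simp) p).hasFDerivAt
  rw [((hψs.differentiable (by simp) p).hasFDerivAt.fun_smul hHg).fderiv]
  simp only [add_apply, smul_apply, ContinuousLinearMap.smulRight_apply]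
  rw [norm_add_sq_real, norm_smul, norm_smul, inner_smul_left, inner_smul_right, dH, real_inner_comm,
    horth, mul_pow, mul_pow, hHiso, hH1, dψ, dg, sq2_smul, sq2_toR2, hfnorm, dlin]
  have e : (tau (W ε) (cov1 ε φ (W ε)) (cov2 ε φ (W ε)) p).re
      = tre (W ε) (cov1 ε φ (W ε)) (cov2 ε φ (W ε)) p ∧
      (tau (W ε) (cov1 ε φ (W ε)) (cov2 ε φ (W ε)) p).im
      = tim (W ε) (cov1 ε φ (W ε)) (cov2 ε φ (W ε)) p := by simp [tau]
  rw [e.1, e.2, hg.norm_eq]
  simp only [Real.norm_eq_abs, sq_abs, mul_zero, add_zero, one_pow, mul_one]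
  simp only [hψ, cov1, cov2, Pi.add_apply, Real.exp_add]
  have e2 : Real.exp (2 * φ p) = Real.exp (φ p) ^ 2 := exp_two_mul _
  have e3 : Real.exp (-2 * W ε p) = (Real.exp (W ε p) ^ 2)⁻¹ := by
    rw [← exp_two_mul, ← Real.exp_neg]; congr 1; ring
  rw [e2, e3]
  have := Real.exp_pos (W ε p)
  field_simp
  ring

end

end Vale.Agent.P205
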