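import Mathlib

/-!
Common definitions for isometric immersions of tori in four dimensions.
Points of the plane are pairs of reals; squared lengths are always written out.
-/

namespace Vale.Agent.P205

open scoped ContDiff

noncomputable section

/-- The plane. -/
abbrev R2 := ℝ × ℝ

/-- Squared Euclidean length. -/
def sq2 (v : R2) : ℝ := v.1 ^ 2 + v.2 ^ 2

/-- Determinant of two plane vectors. -/
def det2 (a b : R2) : ℝ := a.1 * b.2 - a.2 * b.1

/-- Periodicity with respect to two vectors. -/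
def Periodic2 {α : Type*} (a b : R2) (f : R2 → α) : Prop :=
  (∀ p, f (p + a) = f p) ∧ ∀ p, f (p + b) = f p

/-- First partial derivative. -/
def dX (f : R2 → ℝ) (p : R2) : ℝ := fderiv ℝ f p (1, 0)

/-- Second partial derivative. -/
def dY (f : R2 → ℝ) (p : R2) : ℝ := fderiv ℝ f p (0, 1)

/-- Laplacian. -/
def lap (f : R2 → ℝ) (p : R2) : ℝ := dX (dX f) p + dY (dY f) p

/-- Determinant of the Hessian of `χ` in the conformal metric with factor `exp (-2 * w)`. -/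
def detHess (w χ : R2 → ℝ) (p : R2) : ℝ :=
  (dX (dX χ) p + dX w p * dX χ p - dY w p * dY χ p)
      * (dY (dY χ) p - dX w p * dX χ p + dY w p * dY χ p)
    - (dX (dY χ) p + dX w p * dY χ p + dY w p * dX χ p) ^ 2

/-- The equation saying that `exp (-2 * w) * (dx² + dy²) - ε² * d(φ + w)²` is flat. -/
def FlatEq (ε : ℝ) (φ w : R2 → ℝ) (p : R2) : Prop :=
  lap w p = ε ^ 2 * Real.exp (2 * w p) *
    (lap w p * ((dX (φ + w) p) ^ 2 + (dY (φ + w) p) ^ 2) + detHess w (φ + w) p)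

/-- A smooth family of solutions of the flatness equation, continuous in the parameter. -/
structure FlatFamily (a b : R2) (φ : R2 → ℝ) (ε₀ : ℝ) (w : ℝ → R2 → ℝ) : Prop where
  pos : 0 < ε₀
  zero : ∀ p, w 0 p = 0
  smooth : ∀ ε ∈ Set.Icc 0 ε₀, ContDiff ℝ ∞ (w ε)
  periodic : ∀ ε ∈ Set.Icc 0 ε₀, Periodic2 a b (w ε)
  flat : ∀ ε ∈ Set.Icc 0 ε₀, ∀ p, FlatEq ε φ (w ε) p
  cont0 : ContinuousOn (fun x : ℝ × R2 => w x.1 x.2) (Set.Icc 0 ε₀ ×ˢ Set.univ)
  contX : ContinuousOn (fun x : ℝ × R2 => dX (w x.1) x.2) (Set.Icc 0 ε₀ ×ˢ Set.univ)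
  contY : ContinuousOn (fun x : ℝ × R2 => dY (w x.1) x.2) (Set.Icc 0 ε₀ ×ˢ Set.univ)
  contXX : ContinuousOn (fun x : ℝ × R2 => dX (dX (w x.1)) x.2) (Set.Icc 0 ε₀ ×ˢ Set.univ)
  contXY : ContinuousOn (fun x : ℝ × R2 => dX (dY (w x.1)) x.2) (Set.Icc 0 ε₀ ×ˢ Set.univ)
  contYY : ContinuousOn (fun x : ℝ × R2 => dY (dY (w x.1)) x.2) (Set.Icc 0 ε₀ ×ˢ Set.univ)

end

end Vale.Agent.P205
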