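import Vale.Agent.P205.Defs

/-!
Developing map of a flat periodic metric given by an orthonormal coframe and a closed connection
form. Periods are given by explicit integrals, so that they depend continuously on parameters.
-/

namespace Vale.Agent.P205

open scoped ContDiff ComplexConjugate
open Set Complex

noncomputable section

theorem periodic_range {α : Type*} {a b : R2} (hab : det2 a b ≠ 0) {g : R2 → α}
    (hg : Periodic2 a b g) (p : R2) :
    ∃ x ∈ Icc (0 : R2) (1, 1), g (x.1 • a + x.2 • b) = g p := by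
  set s := det2 p b / det2 a b with hs
  set t := det2 a p / det2 a b with ht
  refine ⟨(Int.fract s, Int.fract t), ⟨⟨Int.fract_nonneg _, Int.fract_nonneg _⟩,
    (Int.fract_lt_one _).le, (Int.fract_lt_one _).le⟩, ?_⟩
  have h1 : Function.Periodic g a := hg.1
  have h2 : Function.Periodic g b := hg.2
  have hp : p = s • a + t • b := by
    rw [hs, ht]
    refine Prod.ext ?_ ?_ <;>
      · simp only [Prod.fst_add, Prod.snd_add, Prod.smul_fst, Prod.smul_snd, smul_eq_mul]
        field_simp
        unfold det2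
        ring
  have h := ((h1.zsmul ⌊s⌋).add_period (h2.zsmul ⌊t⌋)) (Int.fract s • a + Int.fract t • b)
  rw [← h]
  congr 1
  conv_rhs => rw [hp, ← Int.floor_add_fract s, ← Int.floor_add_fract t]
  rw [add_smul, add_smul, Int.cast_smul_eq_zsmul, Int.cast_smul_eq_zsmul]
  abel

theorem periodic_exists_critical {a b : R2} (hab : det2 a b ≠ 0) {g : R2 → ℝ}
    (hg : Periodic2 a b g) (hc : Continuous g) :
    ∃ p, (∀ q, g q ≤ g p) ∧ fderiv ℝ g p = 0 := by
  obtain ⟨x, hx, hmax⟩ := (isCompact_Icc (a := (0 : R2)) (b := (1, 1))).exists_isMaxOn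
    (nonempty_Icc.2 (by simp [Prod.le_def]))
    (f := fun x : R2 => g (x.1 • a + x.2 • b)) (by fun_prop)
  have hall : ∀ q, g q ≤ g (x.1 • a + x.2 • b) := fun q => by
    obtain ⟨y, hy, he⟩ := periodic_range hab hg q
    rw [← he]; exact hmax hy
  exact ⟨_, hall, IsLocalMax.fderiv_eq_zero (Filter.Eventually.of_forall hall)⟩

theorem const_of_hasFDerivAt {F : Type*} [NormedAddCommGroup F] [NormedSpace ℝ F] {f : R2 → F}
    (h : ∀ p, HasFDerivAt f (0 : R2 →L[ℝ] F) p) (p q : R2) : f p = f q :=
  is_const_of_fderiv_eq_zero (fun p => (h p).differentiableAt) (fun p => (h p).fderiv) p q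

theorem sub_eq_integral {F : Type*} [NormedAddCommGroup F] [NormedSpace ℝ F] [CompleteSpace F]
    {f : R2 → F} {f' : R2 → R2 →L[ℝ] F} (hf : ∀ p, HasFDerivAt f (f' p) p) (hc : Continuous f')
    (v : R2) : f v - f 0 = ∫ t in (0 : ℝ)..1, f' (t • v) v := by
  have h : ∀ t : ℝ, HasDerivAt (fun t : ℝ => f (t • v)) (f' (t • v) v) t := fun t => by
    have := (hf (t • v)).comp_hasDerivAt t ((hasDerivAt_id t).smul_const v)
    simpa [Function.comp_def] using this
  rw [intervalIntegral.integral_eq_sub_of_hasDerivAt (fun t _ => h t)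
    ((by fun_prop : Continuous fun t : ℝ => f' (t • v) v).intervalIntegrable _ _)]
  simp

/-- The one-form `u dx + v dy`. -/
def form {F : Type*} [NormedAddCommGroup F] [NormedSpace ℝ F] (u v : R2 → F) (p : R2) :
    R2 →L[ℝ] F :=
  (ContinuousLinearMap.fst ℝ ℝ ℝ).smulRight (u p) + (ContinuousLinearMap.snd ℝ ℝ ℝ).smulRight (v p)

@[simp] theorem form_apply {F : Type*} [NormedAddCommGroup F] [NormedSpace ℝ F] (u v : R2 → F)
    (p x : R2) : form u v p x = x.1 • u p + x.2 • v p := by
  simp [form]

theorem contDiff_form {F : Type*} [NormedAddCommGroup F] [NormedSpace ℝ F] {u v : R2 → F}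
    (hu : ContDiff ℝ ∞ u) (hv : ContDiff ℝ ∞ v) : ContDiff ℝ ∞ (form u v) := by
  have e : form u v = fun p =>
      ContinuousLinearMap.smulRightL ℝ R2 F (ContinuousLinearMap.fst ℝ ℝ ℝ) (u p) +
        ContinuousLinearMap.smulRightL ℝ R2 F (ContinuousLinearMap.snd ℝ ℝ ℝ) (v p) := rfl
  rw [e]; fun_prop

theorem exists_primitive {F : Type*} [NormedAddCommGroup F] [NormedSpace ℝ F] [CompleteSpace F]
    {u v : R2 → F} (hu : ContDiff ℝ ∞ u) (hv : ContDiff ℝ ∞ v)
    (hcl : ∀ p, fderiv ℝ v p (1, 0) = fderiv ℝ u p (0, 1)) :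
    ∃ f : R2 → F, ContDiff ℝ ∞ f ∧ f 0 = 0 ∧ ∀ p, HasFDerivAt f (form u v p) p := by
  have hd : Differentiable ℝ (form u v) := (contDiff_form hu hv).differentiable (by simp)
  obtain ⟨f, hf⟩ := convex_univ.exists_forall_hasFDerivAt_of_fderiv_symmetric isOpen_univ
    hd.differentiableOn fun p _ x y => by
      have e : ∀ x y : R2, fderiv ℝ (form u v) p x y
          = y.1 • fderiv ℝ u p x + y.2 • fderiv ℝ v p x := fun x y => by
        have h1 : fderiv ℝ (fun q => form u v q y) p x = fderiv ℝ (form u v) p x y := by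
          rw [fderiv_clm_apply (hd p) (differentiableAt_const y)]; simp
        rw [← h1]
        simp only [form_apply]
        have hu' := (hu.differentiable (by simp) p).hasFDerivAt
        have hv' := (hv.differentiable (by simp) p).hasFDerivAt
        rw [((hu'.fun_const_smul y.1).fun_add (hv'.fun_const_smul y.2)).fderiv]
        simp
      have hl : ∀ (L : R2 →L[ℝ] F) (x : R2), L x = x.1 • L (1, 0) + x.2 • L (0, 1) := fun L x => by
        rw [← map_smul, ← map_smul, ← map_add]; simp
      rw [e, e, hl _ x, hl _ x, hl _ y, hl _ y, hcl p]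
      simp only [smul_add, smul_smul]
      module
  refine ⟨fun p => f p - f 0, ?_, sub_self _, fun p => (hf p (mem_univ _)).sub_const _⟩
  refine (contDiff_infty_iff_fderiv.2 ⟨fun p => ((hf p (mem_univ _)).sub_const _).differentiableAt, ?_⟩)
  have e : fderiv ℝ (fun p => f p - f 0) = form u v :=
    funext fun p => ((hf p (mem_univ _)).sub_const _).fderiv
  rw [e]; exact contDiff_form hu hv

/-- The angle: primitive of the connection form. -/
def alpha (u v : R2 → ℝ) (p : R2) : ℝ := ∫ t in (0 : ℝ)..1, (p.1 * u (t • p) + p.2 * v (t • p))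

/-- The period of the developed coframe along a vector. -/
def period (u v σ : R2 → ℝ) (τ : R2 → ℂ) (q : R2) : ℂ :=
  ∫ t in (0 : ℝ)..1, Complex.exp (-I * alpha u v (t • q)) *
    ((q.1 : ℂ) * σ (t • q) + (q.2 : ℂ) * τ (t • q))

theorem exists_developing {a b : R2} (hab : det2 a b ≠ 0) {u v σ : R2 → ℝ} {τ : R2 → ℂ}
    (hu : ContDiff ℝ ∞ u) (hv : ContDiff ℝ ∞ v) (hσ : ContDiff ℝ ∞ σ) (hτ : ContDiff ℝ ∞ τ)
    (pu : Periodic2 a b u) (pv : Periodic2 a b v) (pσ : Periodic2 a b σ) (pτ : Periodic2 a b τ)
    (hσp : ∀ p, 0 < σ p) (hτp : ∀ p, 0 < (τ p).im)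
    (hcl : ∀ p, dX v p = dY u p)
    (hstr : ∀ p, fderiv ℝ τ p (1, 0) - (dY σ p : ℂ) = I * (u p * τ p - v p * σ p)) :
    ∃ f : R2 → ℂ, ContDiff ℝ ∞ f ∧
      (∀ p q, ‖fderiv ℝ f p q‖ ^ 2 =
        (σ p * q.1 + (τ p).re * q.2) ^ 2 + ((τ p).im * q.2) ^ 2) ∧
      (∀ p, f (p + a) = f p + period u v σ τ a) ∧
      (∀ p, f (p + b) = f p + period u v σ τ b) ∧
      (conj (period u v σ τ a) * period u v σ τ b).im ≠ 0 := by
  obtain ⟨α, hα, hα0, hαd⟩ := exists_primitive hu hv hcl
  have hαeq : ∀ p, alpha u v p = α p := fun p => by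
    have := sub_eq_integral hαd (contDiff_form hu hv).continuous p
    rw [hα0, sub_zero] at this
    rw [this]
    exact intervalIntegral.integral_congr fun t _ => by simp
  set E : R2 → ℂ := fun p => Complex.exp (-I * α p) with hE
  have hαC : ContDiff ℝ ∞ fun p => (α p : ℂ) := Complex.ofRealCLM.contDiff.comp hα
  have hσC : ContDiff ℝ ∞ fun p => (σ p : ℂ) := Complex.ofRealCLM.contDiff.comp hσ
  have hEs : ContDiff ℝ ∞ E := (contDiff_const.mul hαC).cexp
  have hEd : ∀ p x, fderiv ℝ E p x = E p * (-I * (x.1 * u p + x.2 * v p)) := fun p x => by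
    have h1 : HasFDerivAt (fun p => (α p : ℂ)) (Complex.ofRealCLM.comp (form u v p)) p :=
      Complex.ofRealCLM.hasFDerivAt.comp p (hαd p)
    rw [((h1.const_mul (-I)).cexp).fderiv]
    simp [hE, smul_eq_mul]
  have hE0 : ∀ p, E p ≠ 0 := fun p => Complex.exp_ne_zero _
  obtain ⟨f, hf, hf0, hfd⟩ := exists_primitive (u := fun p => E p * (σ p : ℂ))
    (v := fun p => E p * τ p) (hEs.mul hσC) (hEs.mul hτ) fun p => by
      have d1 : DifferentiableAt ℝ E p := hEs.differentiable (by simp) p
      have e : fderiv ℝ (fun p => (σ p : ℂ)) p (0, 1) = (dY σ p : ℂ) := by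
        rw [show fderiv ℝ (fun p => (σ p : ℂ)) p = Complex.ofRealCLM.comp (fderiv ℝ σ p) from
          (Complex.ofRealCLM.hasFDerivAt.comp p (hσ.differentiable (by simp) p).hasFDerivAt).fderiv]
        rfl
      rw [fderiv_fun_mul d1 (hτ.differentiable (by simp) p),
        fderiv_fun_mul d1 (hσC.differentiable (by simp) p)]
      simp only [ContinuousLinearMap.add_apply, FunLike.coe_smul, Pi.smul_apply, smul_eq_mul, hEd, e]
      push_cast
      linear_combination (E p) * hstr p
  have happ : ∀ p x, form (fun p => E p * (σ p : ℂ)) (fun p => E p * τ p) p x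
      = E p * ((x.1 : ℂ) * σ p + (x.2 : ℂ) * τ p) := fun p x => by
    simp [Complex.real_smul]; ring
  have hper : ∀ c, f c = period u v σ τ c := fun c => by
    have := sub_eq_integral hfd (contDiff_form (hEs.mul hσC) (hEs.mul hτ)).continuous c
    rw [hf0, sub_zero] at this
    rw [this]
    exact intervalIntegral.integral_congr fun t _ => by
      rw [happ]; simp only [hαeq, hE]
  have hnorm : ∀ p q, ‖form (fun p => E p * (σ p : ℂ)) (fun p => E p * τ p) p q‖ ^ 2 =
      (σ p * q.1 + (τ p).re * q.2) ^ 2 + ((τ p).im * q.2) ^ 2 := fun p q => by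
    rw [happ, norm_mul, mul_pow]
    have : ‖E p‖ = 1 := by simp [hE, Complex.norm_exp]
    rw [this, one_pow, one_mul, ← Complex.normSq_eq_norm_sq, Complex.normSq_apply]
    simp only [add_re, add_im, mul_re, mul_im, ofReal_re, ofReal_im]
    ring
  -- no nonzero linear functional kills the differential
  have hsurj : ∀ p (ξ : ℂ), (∀ x, (conj ξ * form (fun p => E p * (σ p : ℂ))
      (fun p => E p * τ p) p x).re = 0) → ξ = 0 := fun p ξ h => by
    have h1 := h (1, 0); have h2 := h (0, 1)
    rw [happ] at h1 h2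
    simp only [ofReal_one, ofReal_zero, one_mul, zero_mul, add_zero, zero_add, ← mul_assoc] at h1 h2
    have h1' : (conj ξ * E p).re = 0 := by
      simp only [mul_re, ofReal_re, ofReal_im, mul_zero, sub_zero] at h1
      exact (mul_eq_zero.1 h1).resolve_right (hσp p).ne'
    have h2' : (conj ξ * E p).im = 0 := by
      rw [mul_re, h1', zero_mul, zero_sub, neg_eq_zero] at h2
      exact (mul_eq_zero.1 h2).resolve_right (hτp p).ne'
    have := Complex.ext (z := conj ξ * E p) (w := 0) (by simpa using h1') (by simpa using h2')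
    simpa [hE0 p] using this
  have shift : ∀ c, Function.Periodic u c → Function.Periodic v c → Function.Periodic σ c →
      Function.Periodic τ c → ∀ p, f (p + c) = E c * f p + f c := fun c h1 h2 h3 h4 p => by
    have hE' : ∀ q, E (q + c) = E c * E q := fun q => by
      have hc : ∀ q, HasFDerivAt (fun q => α (q + c) - α q) (0 : R2 →L[ℝ] ℝ) q := fun q => by
        have := ((hαd (q + c)).comp q ((hasFDerivAt_id q).add_const c)).sub (hαd q)
        refine this.congr_fderiv (ContinuousLinearMap.ext fun x => ?_)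
        simp [h1 q, h2 q]
      have := const_of_hasFDerivAt hc q 0
      simp only [zero_add, hα0, sub_zero] at this
      simp only [hE, ← Complex.exp_add]
      congr 1
      rw [show α (q + c) = α c + α q by linarith]
      push_cast; ring
    have hd : ∀ q, HasFDerivAt (fun q => f (q + c) - E c * f q) (0 : R2 →L[ℝ] ℂ) q := fun q => by
      have := ((hfd (q + c)).comp q ((hasFDerivAt_id q).add_const c)).sub ((hfd q).const_mul (E c))
      refine this.congr_fderiv (ContinuousLinearMap.ext fun x => ?_)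
      simp [hE' q, h3 q, h4 q, Complex.real_smul]
      ring
    have := const_of_hasFDerivAt hd p 0
    simp only [zero_add, hf0, mul_zero, sub_zero] at this
    linear_combination this
  have ha := shift a pu.1 pv.1 pσ.1 pτ.1
  have hb := shift b pu.2 pv.2 pσ.2 pτ.2
  have hEn : ∀ p, ‖E p‖ = 1 := fun p => by simp [hE, Complex.norm_exp]
  have hrot : E a = 1 ∧ E b = 1 := by
    by_contra hne
    have hcomm : (E a - 1) * f b = (E b - 1) * f a := by
      have h1 := hb a; have h2 := ha b
      rw [add_comm] at h2; rw [h1] at h2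
      linear_combination -h2
    obtain ⟨z, hza, hzb⟩ : ∃ z, E a * z + f a = z ∧ E b * z + f b = z := by
      by_cases h : E a = 1
      · have hb1 : 1 - E b ≠ 0 := sub_ne_zero.2 fun h' => hne ⟨h, h'.symm⟩
        have hfa : f a = 0 := by
          rw [h, sub_self, zero_mul] at hcomm
          exact (mul_eq_zero.1 hcomm.symm).resolve_left (fun h' => hb1 (by linear_combination -h'))
        exact ⟨f b / (1 - E b), by simp [h, hfa], by field_simp; ring⟩
      · have ha1 : 1 - E a ≠ 0 := sub_ne_zero.2 (Ne.symm h)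
        refine ⟨f a / (1 - E a), by field_simp; ring, ?_⟩
        field_simp
        linear_combination -hcomm
    have hg : Periodic2 a b fun p => ‖f p - z‖ ^ 2 := by
      constructor <;> intro p <;> dsimp only
      · rw [ha, show E a * f p + f a - z = E a * (f p - z) by linear_combination hza, norm_mul,
          hEn, one_mul]
      · rw [hb, show E b * f p + f b - z = E b * (f p - z) by linear_combination hzb, norm_mul,
          hEn, one_mul]
    obtain ⟨p, hmax, hcrit⟩ := periodic_exists_critical hab hg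
      ((hf.continuous.sub continuous_const).norm.pow 2)
    have hp : f p - z = 0 := hsurj p _ fun x => by
      have hd := ((hfd p).sub_const z).norm_sq
      rw [hd.fderiv] at hcrit
      have := congrArg (fun L : R2 →L[ℝ] ℝ => L x) hcrit
      simp [Complex.inner] at this
      simp [happ]
      linear_combination this
    have hall : ∀ q, f q = z := fun q => by
      have := hmax q
      rw [hp, norm_zero] at this
      exact sub_eq_zero.1 (norm_eq_zero.1 (by nlinarith [norm_nonneg (f q - z)]))
    have h0 : HasFDerivAt f (0 : R2 →L[ℝ] ℂ) p := by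
      rw [show f = fun _ => z from funext hall]; exact hasFDerivAt_const _ _
    have := hsurj p 1 fun x => by simp [(hfd p).unique h0]
    exact one_ne_zero this
  have hA : ∀ p, f (p + a) = f p + f a := fun p => by rw [ha, hrot.1, one_mul]
  have hB : ∀ p, f (p + b) = f p + f b := fun p => by rw [hb, hrot.2, one_mul]
  refine ⟨f, hf, fun p q => by rw [(hfd p).fderiv]; exact hnorm p q,
    fun p => by rw [hA, hper a], fun p => by rw [hB, hper b], ?_⟩
  rw [← hper, ← hper]
  intro hdet
  obtain ⟨ξ, hξ, h1, h2⟩ : ∃ ξ : ℂ, ξ ≠ 0 ∧ (conj ξ * f a).re = 0 ∧ (conj ξ * f b).re = 0 := by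
    by_cases h : f a = 0
    · by_cases h' : f b = 0
      · exact ⟨1, one_ne_zero, by simp [h], by simp [h']⟩
      · exact ⟨I * f b, mul_ne_zero I_ne_zero h', by simp [h], by simp; ring⟩
    · refine ⟨I * f a, mul_ne_zero I_ne_zero h, by simp; ring, ?_⟩
      rw [map_mul, mul_assoc, conj_I, neg_mul, neg_re, mul_re, I_re, I_im, hdet]; simp
  have hg : Periodic2 a b fun p => (conj ξ * f p).re := by
    constructor <;> intro p <;> dsimp only
    · rw [hA, mul_add, add_re, h1, add_zero]
    · rw [hB, mul_add, add_re, h2, add_zero]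
  obtain ⟨p, -, hcrit⟩ := periodic_exists_critical hab hg (by fun_prop)
  refine hξ (hsurj p ξ fun x => ?_)
  have hd : HasFDerivAt (fun p => (conj ξ * f p).re) _ p :=
    Complex.reCLM.hasFDerivAt.comp p ((hfd p).const_mul (conj ξ))
  rw [hd.fderiv] at hcrit
  simpa using congrArg (fun L : R2 →L[ℝ] ℝ => L x) hcrit

end

end Vale.Agent.P205
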