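import Vale.Agent.P205.Partial
import Vale.Agent.P205.Dev

/-!
The metric `exp (-2 w) * (dx² + dy² - (c dx + d dy)²)`: coframe, connection form, curvature and,
when it is flat, its developing map.
-/

namespace Vale.Agent.P205

open scoped ContDiff
open Set Complex

noncomputable section

variable {w c d : R2 → ℝ} {p : R2}

/-- One minus the squared length of the covector. -/
def disc (c d : R2 → ℝ) (q : R2) : ℝ := 1 - c q * c q - d q * d q

/-- Reciprocal of the square root of `disc`. -/
def rdisc (c d : R2 → ℝ) (q : R2) : ℝ := 1 / √(disc c d q)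

/-- Coefficient of the differential of `c` in the connection form. -/
def hcoef (c d : R2 → ℝ) (q : R2) : ℝ := d q * rdisc c d q / (1 - c q * c q)

/-- Connection form, first component. -/
def om1 (w c d : R2 → ℝ) (q : R2) : ℝ := hcoef c d q * dX c q - dY w q * rdisc c d q

/-- Connection form, second component. -/
def om2 (w c d : R2 → ℝ) (q : R2) : ℝ := hcoef c d q * dY c q + dX w q * rdisc c d q

/-- First coframe coefficient. -/
def sg (w c : R2 → ℝ) (q : R2) : ℝ := Real.exp (0 - w q) * √(1 - c q * c q)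

/-- Real part of the second coframe coefficient. -/
def tre (w c d : R2 → ℝ) (q : R2) : ℝ :=
  0 - Real.exp (0 - w q) * (c q * d q) / √(1 - c q * c q)

/-- Imaginary part of the second coframe coefficient. -/
def tim (w c d : R2 → ℝ) (q : R2) : ℝ :=
  Real.exp (0 - w q) * √(disc c d q) / √(1 - c q * c q)

/-- Second coframe coefficient. -/
def tau (w c d : R2 → ℝ) (q : R2) : ℂ := (tre w c d q : ℂ) + (tim w c d q : ℂ) * I

/-- The flatness residual. -/
def resid (w c d : R2 → ℝ) (q : R2) : ℝ :=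
  disc c d q * lap w q + c q * (dX w q * dX c q + dY w q * dY c q)
    + d q * (dX w q * dX d q + dY w q * dY d q) - (dX c q * dY d q - dY c q * dX d q)

/-- Smooth coefficients with the covector shorter than one. -/
structure Good (w c d : R2 → ℝ) : Prop where
  hw : ContDiff ℝ ∞ w
  hc : ContDiff ℝ ∞ c
  hd : ContDiff ℝ ∞ d
  lt : ∀ q, c q * c q + d q * d q < 1

theorem Good.disc_pos (h : Good w c d) (q : R2) : 0 < disc c d q := by
  have := h.lt q; unfold disc; linarith

theorem Good.one_sub_pos (h : Good w c d) (q : R2) : 0 < 1 - c q * c q := by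
  have := h.lt q; nlinarith [mul_self_nonneg (d q)]

theorem Good.contDiff_disc (h : Good w c d) : ContDiff ℝ ∞ (disc c d) :=
  (contDiff_const.sub (h.hc.mul h.hc)).sub (h.hd.mul h.hd)

theorem Good.contDiff_sqrt_disc (h : Good w c d) : ContDiff ℝ ∞ (fun q => √(disc c d q)) :=
  h.contDiff_disc.sqrt fun q => (h.disc_pos q).ne'

theorem Good.contDiff_one_sub (h : Good w c d) : ContDiff ℝ ∞ (fun q => 1 - c q * c q) :=
  contDiff_const.sub (h.hc.mul h.hc)

theorem Good.contDiff_sqrt_one_sub (h : Good w c d) :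
    ContDiff ℝ ∞ (fun q => √(1 - c q * c q)) :=
  h.contDiff_one_sub.sqrt fun q => (h.one_sub_pos q).ne'

theorem Good.contDiff_rdisc (h : Good w c d) : ContDiff ℝ ∞ (rdisc c d) :=
  contDiff_const.div h.contDiff_sqrt_disc fun q => (Real.sqrt_pos.2 (h.disc_pos q)).ne'

theorem Good.contDiff_hcoef (h : Good w c d) : ContDiff ℝ ∞ (hcoef c d) :=
  (h.hd.mul h.contDiff_rdisc).div h.contDiff_one_sub fun q => (h.one_sub_pos q).ne'

theorem Good.contDiff_om1 (h : Good w c d) : ContDiff ℝ ∞ (om1 w c d) :=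
  (h.contDiff_hcoef.mul (contDiff_dX h.hc)).sub ((contDiff_dY h.hw).mul h.contDiff_rdisc)

theorem Good.contDiff_om2 (h : Good w c d) : ContDiff ℝ ∞ (om2 w c d) :=
  (h.contDiff_hcoef.mul (contDiff_dY h.hc)).add ((contDiff_dX h.hw).mul h.contDiff_rdisc)

theorem Good.contDiff_expNeg (h : Good w c d) : ContDiff ℝ ∞ (fun q => Real.exp (0 - w q)) :=
  (contDiff_const.sub h.hw).exp

theorem Good.contDiff_sg (h : Good w c d) : ContDiff ℝ ∞ (sg w c) :=
  h.contDiff_expNeg.mul h.contDiff_sqrt_one_sub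

theorem Good.contDiff_tre (h : Good w c d) : ContDiff ℝ ∞ (tre w c d) :=
  contDiff_const.sub ((h.contDiff_expNeg.mul (h.hc.mul h.hd)).div h.contDiff_sqrt_one_sub
    fun q => (Real.sqrt_pos.2 (h.one_sub_pos q)).ne')

theorem Good.contDiff_tim (h : Good w c d) : ContDiff ℝ ∞ (tim w c d) :=
  (h.contDiff_expNeg.mul h.contDiff_sqrt_disc).div h.contDiff_sqrt_one_sub
    fun q => (Real.sqrt_pos.2 (h.one_sub_pos q)).ne'

theorem Good.contDiff_tau (h : Good w c d) : ContDiff ℝ ∞ (tau w c d) :=
  (Complex.ofRealCLM.contDiff.comp h.contDiff_tre).add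
    ((Complex.ofRealCLM.contDiff.comp h.contDiff_tim).mul contDiff_const)

theorem Good.dX_disc (h : Good w c d) :
    dX (disc c d) p = -(2 * (c p * dX c p + d p * dX d p)) := by
  unfold disc
  rw [dX_sub (contDiff_const.sub (h.hc.mul h.hc)) (h.hd.mul h.hd),
    dX_sub contDiff_const (h.hc.mul h.hc), dX_mul h.hc h.hc, dX_mul h.hd h.hd, dX_const]
  ring

theorem Good.dY_disc (h : Good w c d) :
    dY (disc c d) p = -(2 * (c p * dY c p + d p * dY d p)) := by
  unfold disc
  rw [dY_sub (contDiff_const.sub (h.hc.mul h.hc)) (h.hd.mul h.hd),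
    dY_sub contDiff_const (h.hc.mul h.hc), dY_mul h.hc h.hc, dY_mul h.hd h.hd, dY_const]
  ring

theorem Good.dX_sqrt_disc (h : Good w c d) :
    dX (fun q => √(disc c d q)) p = -(c p * dX c p + d p * dX d p) / √(disc c d p) := by
  rw [dX_sqrt h.contDiff_disc (h.disc_pos p).ne', h.dX_disc]
  have := (Real.sqrt_pos.2 (h.disc_pos p)).ne'
  field_simp

theorem Good.dY_sqrt_disc (h : Good w c d) :
    dY (fun q => √(disc c d q)) p = -(c p * dY c p + d p * dY d p) / √(disc c d p) := by
  rw [dY_sqrt h.contDiff_disc (h.disc_pos p).ne', h.dY_disc]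
  have := (Real.sqrt_pos.2 (h.disc_pos p)).ne'
  field_simp

theorem Good.dX_rdisc (h : Good w c d) :
    dX (rdisc c d) p = (c p * dX c p + d p * dX d p) * rdisc c d p ^ 3 := by
  have := (Real.sqrt_pos.2 (h.disc_pos p)).ne'
  unfold rdisc
  rw [dX_div contDiff_const h.contDiff_sqrt_disc this, dX_const, h.dX_sqrt_disc]
  field_simp
  ring

theorem Good.dY_rdisc (h : Good w c d) :
    dY (rdisc c d) p = (c p * dY c p + d p * dY d p) * rdisc c d p ^ 3 := by
  have := (Real.sqrt_pos.2 (h.disc_pos p)).ne'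
  unfold rdisc
  rw [dY_div contDiff_const h.contDiff_sqrt_disc this, dY_const, h.dY_sqrt_disc]
  field_simp
  ring

theorem Good.rdisc_sq (h : Good w c d) (q : R2) :
    rdisc c d q ^ 2 * disc c d q = 1 := by
  rw [rdisc, div_pow, Real.sq_sqrt (h.disc_pos q).le]
  field_simp [(h.disc_pos q).ne']

theorem Good.curvature (h : Good w c d) :
    dX (om2 w c d) p - dY (om1 w c d) p = rdisc c d p ^ 3 * resid w c d p := by
  have hX : dX (om2 w c d) p = dX (hcoef c d) p * dY c p + hcoef c d p * dX (dY c) p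
      + (dX (dX w) p * rdisc c d p + dX w p * dX (rdisc c d) p) := by
    unfold om2
    rw [dX_add (h.contDiff_hcoef.mul (contDiff_dY h.hc)) ((contDiff_dX h.hw).mul h.contDiff_rdisc),
      dX_mul h.contDiff_hcoef (contDiff_dY h.hc), dX_mul (contDiff_dX h.hw) h.contDiff_rdisc]
  have hY : dY (om1 w c d) p = dY (hcoef c d) p * dX c p + hcoef c d p * dX (dY c) p
      - (dY (dY w) p * rdisc c d p + dY w p * dY (rdisc c d) p) := by
    unfold om1
    rw [dY_sub (h.contDiff_hcoef.mul (contDiff_dX h.hc)) ((contDiff_dY h.hw).mul h.contDiff_rdisc),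
      dY_mul h.contDiff_hcoef (contDiff_dX h.hc), dY_mul (contDiff_dY h.hw) h.contDiff_rdisc,
      dY_dX h.hc]
  have gX : dX (hcoef c d) p = ((dX d p * rdisc c d p + d p * dX (rdisc c d) p) * (1 - c p * c p)
      + d p * rdisc c d p * (2 * c p * dX c p)) / (1 - c p * c p) ^ 2 := by
    unfold hcoef
    rw [dX_div (h.hd.mul h.contDiff_rdisc) h.contDiff_one_sub (h.one_sub_pos p).ne',
      dX_mul h.hd h.contDiff_rdisc, dX_sub contDiff_const (h.hc.mul h.hc), dX_mul h.hc h.hc,
      dX_const]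
    ring
  have gY : dY (hcoef c d) p = ((dY d p * rdisc c d p + d p * dY (rdisc c d) p) * (1 - c p * c p)
      + d p * rdisc c d p * (2 * c p * dY c p)) / (1 - c p * c p) ^ 2 := by
    unfold hcoef
    rw [dY_div (h.hd.mul h.contDiff_rdisc) h.contDiff_one_sub (h.one_sub_pos p).ne',
      dY_mul h.hd h.contDiff_rdisc, dY_sub contDiff_const (h.hc.mul h.hc), dY_mul h.hc h.hc,
      dY_const]
    ring
  have h1 : rdisc c d p ^ 2 * (1 - c p * c p - d p * d p) = 1 := h.rdisc_sq p
  have hK : dX (hcoef c d) p * dY c p - dY (hcoef c d) p * dX c p =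
      rdisc c d p ^ 3 * (dX d p * dY c p - dY d p * dX c p) := by
    have hq := (h.one_sub_pos p).ne'
    rw [gX, gY, h.dX_rdisc, h.dY_rdisc, div_mul_eq_mul_div, div_mul_eq_mul_div, ← sub_div,
      div_eq_iff (pow_ne_zero 2 hq)]
    linear_combination (-(rdisc c d p * (dX d p * dY c p - dY d p * dX c p) * (1 - c p * c p))) * h1
  rw [hX, hY, resid, lap]
  simp only [h.dX_rdisc, h.dY_rdisc, disc]
  linear_combination hK - (dX (dX w) p + dY (dY w) p) * rdisc c d p * h1

theorem Good.structure_eq (h : Good w c d)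
    (hrel : ∀ q, dY c q - dX d q = c q * dY w q - d q * dX w q) :
    fderiv ℝ (tau w c d) p (1, 0) - (dY (sg w c) p : ℂ) =
      I * (om1 w c d p * tau w c d p - om2 w c d p * sg w c p) := by
  have hm := Real.sqrt_pos.2 (h.one_sub_pos p)
  have hs := Real.sqrt_pos.2 (h.disc_pos p)
  have hm2 : √(1 - c p * c p) ^ 2 = 1 - c p * c p := Real.sq_sqrt (h.one_sub_pos p).le
  have hs2 : √(disc c d p) ^ 2 = 1 - c p * c p - d p * d p := Real.sq_sqrt (h.disc_pos p).le
  have e : fderiv ℝ (tau w c d) p (1, 0) = (dX (tre w c d) p : ℂ) + (dX (tim w c d) p : ℂ) * I := by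
    have h1 : HasFDerivAt (fun q => (tre w c d q : ℂ))
        (Complex.ofRealCLM.comp (fderiv ℝ (tre w c d) p)) p :=
      Complex.ofRealCLM.hasFDerivAt.comp p (hasFDerivAt_smooth h.contDiff_tre p)
    have h2 : HasFDerivAt (fun q => (tim w c d q : ℂ))
        (Complex.ofRealCLM.comp (fderiv ℝ (tim w c d) p)) p :=
      Complex.ofRealCLM.hasFDerivAt.comp p (hasFDerivAt_smooth h.contDiff_tim p)
    unfold tau
    rw [(h1.fun_add (h2.mul_const' I)).fderiv]
    simp [dX, mul_comm]
  have eX : dX (fun q => Real.exp (0 - w q)) p = -(Real.exp (0 - w p) * dX w p) := by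
    rw [dX_exp (contDiff_const.sub h.hw), dX_sub contDiff_const h.hw, dX_const]; ring
  have eY : dY (fun q => Real.exp (0 - w q)) p = -(Real.exp (0 - w p) * dY w p) := by
    rw [dY_exp (contDiff_const.sub h.hw), dY_sub contDiff_const h.hw, dY_const]; ring
  have mX : dX (fun q => √(1 - c q * c q)) p = -(c p * dX c p) / √(1 - c p * c p) := by
    rw [dX_sqrt h.contDiff_one_sub (h.one_sub_pos p).ne', dX_sub contDiff_const (h.hc.mul h.hc),
      dX_mul h.hc h.hc, dX_const]
    field_simp; ring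
  have mY : dY (fun q => √(1 - c q * c q)) p = -(c p * dY c p) / √(1 - c p * c p) := by
    rw [dY_sqrt h.contDiff_one_sub (h.one_sub_pos p).ne', dY_sub contDiff_const (h.hc.mul h.hc),
      dY_mul h.hc h.hc, dY_const]
    field_simp; ring
  have dsg : dY (sg w c) p = -(Real.exp (0 - w p) * dY w p) * √(1 - c p * c p)
      + Real.exp (0 - w p) * (-(c p * dY c p) / √(1 - c p * c p)) := by
    unfold sg
    rw [dY_mul h.contDiff_expNeg h.contDiff_sqrt_one_sub, eY, mY]
  have hN : ContDiff ℝ ∞ (fun q => Real.exp (0 - w q) * (c q * d q)) :=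
    h.contDiff_expNeg.mul (h.hc.mul h.hd)
  have hQ : ContDiff ℝ ∞ (fun q => Real.exp (0 - w q) * (c q * d q) / √(1 - c q * c q)) :=
    hN.div h.contDiff_sqrt_one_sub fun q => (Real.sqrt_pos.2 (h.one_sub_pos q)).ne'
  have dre : dX (tre w c d) p = -(((-(Real.exp (0 - w p) * dX w p)) * (c p * d p)
      + Real.exp (0 - w p) * (dX c p * d p + c p * dX d p)) * √(1 - c p * c p)
      - Real.exp (0 - w p) * (c p * d p) * (-(c p * dX c p) / √(1 - c p * c p)))
      / √(1 - c p * c p) ^ 2 := by
    unfold tre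
    rw [dX_sub contDiff_const hQ, dX_div hN h.contDiff_sqrt_one_sub hm.ne',
      dX_mul h.contDiff_expNeg (h.hc.mul h.hd), eX, mX, dX_mul h.hc h.hd, dX_const]
    ring
  have dim : dX (tim w c d) p = ((-(Real.exp (0 - w p) * dX w p) * √(disc c d p)
      + Real.exp (0 - w p) * (-(c p * dX c p + d p * dX d p) / √(disc c d p))) * √(1 - c p * c p)
      - Real.exp (0 - w p) * √(disc c d p) * (-(c p * dX c p) / √(1 - c p * c p)))
      / √(1 - c p * c p) ^ 2 := by
    unfold tim
    rw [dX_div (h.contDiff_expNeg.mul h.contDiff_sqrt_disc) h.contDiff_sqrt_one_sub hm.ne',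
      dX_mul h.contDiff_expNeg h.contDiff_sqrt_disc, eX, mX, h.dX_sqrt_disc]
  rw [e]
  have hr := hrel p
  apply Complex.ext <;>
    simp only [add_re, add_im, sub_re, sub_im, mul_re, mul_im, ofReal_re, ofReal_im, I_re, I_im,
      tau, mul_zero, zero_mul, mul_one, one_mul, add_zero, zero_add, sub_zero, zero_sub] <;>
    simp only [dsg, dre, dim, om1, om2, hcoef, rdisc, sg, tre, tim]
  · generalize Real.exp (0 - w p) = e at *
    generalize √(1 - c p * c p) = m at *
    generalize √(disc c d p) = s at *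
    rw [show (1 : ℝ) - c p * c p = m ^ 2 from hm2.symm]
    field_simp
    linear_combination e * m ^ 2 * c p * hr - e * (d p * dX c p - m ^ 2 * dY w p) * hm2
  · generalize Real.exp (0 - w p) = e at *
    generalize √(1 - c p * c p) = m at *
    generalize √(disc c d p) = s at *
    rw [show (1 : ℝ) - c p * c p = m ^ 2 from hm2.symm]
    field_simp
    linear_combination e * (dX w p * m ^ 2 - c p * dX c p) * (hm2 - hs2) + e * m ^ 2 * d p * hr

theorem Good.norm_eq (h : Good w c d) (q : R2) :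
    (sg w c p * q.1 + tre w c d p * q.2) ^ 2 + (tim w c d p * q.2) ^ 2 =
      Real.exp (-2 * w p) * (sq2 q - (c p * q.1 + d p * q.2) ^ 2) := by
  have hm := Real.sqrt_pos.2 (h.one_sub_pos p)
  have hm2 : √(1 - c p * c p) ^ 2 = 1 - c p * c p := Real.sq_sqrt (h.one_sub_pos p).le
  have hs2 : √(disc c d p) ^ 2 = 1 - c p * c p - d p * d p := Real.sq_sqrt (h.disc_pos p).le
  have he : Real.exp (-2 * w p) = Real.exp (0 - w p) ^ 2 := by
    rw [← Real.exp_nat_mul]; congr 1; push_cast; ring
  rw [he, sg, tre, tim, sq2]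
  generalize Real.exp (0 - w p) = e at *
  generalize √(1 - c p * c p) = m at *
  generalize √(disc c d p) = s at *
  field_simp
  linear_combination e ^ 2 * (m ^ 2 * q.1 ^ 2 + d p ^ 2 * q.2 ^ 2) * hm2
    + e ^ 2 * q.2 ^ 2 * (hs2 - hm2)

end

end Vale.Agent.P205
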