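import Vale.Agent.P205.Curv

/-!
The covector of the cone construction over a family of solutions of the flatness equation, and the
continuity of the periods of the developed flat metric.
-/

namespace Vale.Agent.P205

open scoped ContDiff
open Set Complex

noncomputable section

/-- First component of `ε * exp w * d(φ + w)`. -/
def cov1 (ε : ℝ) (φ w : R2 → ℝ) (q : R2) : ℝ := ε * Real.exp (w q) * dX (φ + w) q

/-- Second component of `ε * exp w * d(φ + w)`. -/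
def cov2 (ε : ℝ) (φ w : R2 → ℝ) (q : R2) : ℝ := ε * Real.exp (w q) * dY (φ + w) q

variable {ε : ℝ} {φ w : R2 → ℝ} {p : R2}

theorem contDiff_sum (hφ : ContDiff ℝ ∞ φ) (hw : ContDiff ℝ ∞ w) : ContDiff ℝ ∞ (φ + w) :=
  hφ.add hw

theorem contDiff_cov1 (hφ : ContDiff ℝ ∞ φ) (hw : ContDiff ℝ ∞ w) :
    ContDiff ℝ ∞ (cov1 ε φ w) :=
  (contDiff_const.mul hw.exp).mul (contDiff_dX (contDiff_sum hφ hw))

theorem contDiff_cov2 (hφ : ContDiff ℝ ∞ φ) (hw : ContDiff ℝ ∞ w) :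
    ContDiff ℝ ∞ (cov2 ε φ w) :=
  (contDiff_const.mul hw.exp).mul (contDiff_dY (contDiff_sum hφ hw))

theorem dX_cov1 (hφ : ContDiff ℝ ∞ φ) (hw : ContDiff ℝ ∞ w) :
    dX (cov1 ε φ w) p =
      ε * Real.exp (w p) * (dX (dX (φ + w)) p + dX w p * dX (φ + w) p) := by
  unfold cov1
  rw [dX_mul (contDiff_const.mul hw.exp) (contDiff_dX (contDiff_sum hφ hw)),
    dX_mul contDiff_const hw.exp, dX_exp hw, dX_const]
  ring

theorem dY_cov1 (hφ : ContDiff ℝ ∞ φ) (hw : ContDiff ℝ ∞ w) :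
    dY (cov1 ε φ w) p =
      ε * Real.exp (w p) * (dX (dY (φ + w)) p + dY w p * dX (φ + w) p) := by
  unfold cov1
  rw [dY_mul (contDiff_const.mul hw.exp) (contDiff_dX (contDiff_sum hφ hw)),
    dY_mul contDiff_const hw.exp, dY_exp hw, dY_const, dY_dX (contDiff_sum hφ hw)]
  ring

theorem dX_cov2 (hφ : ContDiff ℝ ∞ φ) (hw : ContDiff ℝ ∞ w) :
    dX (cov2 ε φ w) p =
      ε * Real.exp (w p) * (dX (dY (φ + w)) p + dX w p * dY (φ + w) p) := by
  unfold cov2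
  rw [dX_mul (contDiff_const.mul hw.exp) (contDiff_dY (contDiff_sum hφ hw)),
    dX_mul contDiff_const hw.exp, dX_exp hw, dX_const]
  ring

theorem dY_cov2 (hφ : ContDiff ℝ ∞ φ) (hw : ContDiff ℝ ∞ w) :
    dY (cov2 ε φ w) p =
      ε * Real.exp (w p) * (dY (dY (φ + w)) p + dY w p * dY (φ + w) p) := by
  unfold cov2
  rw [dY_mul (contDiff_const.mul hw.exp) (contDiff_dY (contDiff_sum hφ hw)),
    dY_mul contDiff_const hw.exp, dY_exp hw, dY_const]
  ring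

theorem exp_two_mul (x : ℝ) : Real.exp (2 * x) = Real.exp x ^ 2 := by
  rw [← Real.exp_nat_mul]; norm_num

theorem resid_cov (hφ : ContDiff ℝ ∞ φ) (hw : ContDiff ℝ ∞ w) :
    resid w (cov1 ε φ w) (cov2 ε φ w) p = lap w p - ε ^ 2 * Real.exp (2 * w p) *
      (lap w p * ((dX (φ + w) p) ^ 2 + (dY (φ + w) p) ^ 2) + detHess w (φ + w) p) := by
  rw [resid, dX_cov1 hφ hw, dY_cov1 hφ hw, dX_cov2 hφ hw, dY_cov2 hφ hw, exp_two_mul]
  simp only [disc, cov1, cov2, detHess]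
  ring

theorem rel_cov (hφ : ContDiff ℝ ∞ φ) (hw : ContDiff ℝ ∞ w) (q : R2) :
    dY (cov1 ε φ w) q - dX (cov2 ε φ w) q
      = cov1 ε φ w q * dY w q - cov2 ε φ w q * dX w q := by
  rw [dY_cov1 hφ hw, dX_cov2 hφ hw, cov1, cov2]; ring

theorem periodic2_comp₂ {a b : R2} {f g : R2 → ℝ} (hf : Periodic2 a b f) (hg : Periodic2 a b g)
    (h : ℝ → ℝ → ℝ) : Periodic2 a b fun q => h (f q) (g q) :=
  ⟨fun q => by simp only [hf.1, hg.1], fun q => by simp only [hf.2, hg.2]⟩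

theorem periodic2_cov {a b : R2} (hφ : ContDiff ℝ ∞ φ) (hw : ContDiff ℝ ∞ w)
    (pφ : Periodic2 a b φ) (pw : Periodic2 a b w) :
    Periodic2 a b (cov1 ε φ w) ∧ Periodic2 a b (cov2 ε φ w) := by
  have h : Periodic2 a b (φ + w) := periodic2_comp₂ pφ pw (· + ·)
  exact ⟨periodic2_comp₂ pw (periodic2_dX (contDiff_sum hφ hw) h) fun x y => ε * Real.exp x * y,
    periodic2_comp₂ pw (periodic2_dY (contDiff_sum hφ hw) h) fun x y => ε * Real.exp x * y⟩

theorem periodic2_curv {a b : R2} {c d : R2 → ℝ} (h : Good w c d) (pw : Periodic2 a b w)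
    (pc : Periodic2 a b c) (pd : Periodic2 a b d) :
    Periodic2 a b (om1 w c d) ∧ Periodic2 a b (om2 w c d) ∧ Periodic2 a b (sg w c) ∧
      Periodic2 a b (tau w c d) := by
  have h1 := periodic2_dX h.hw pw
  have h2 := periodic2_dY h.hw pw
  have h3 := periodic2_dX h.hc pc
  have h4 := periodic2_dY h.hc pc
  refine ⟨⟨fun q => ?_, fun q => ?_⟩, ⟨fun q => ?_, fun q => ?_⟩, ⟨fun q => ?_, fun q => ?_⟩,
    ⟨fun q => ?_, fun q => ?_⟩⟩ <;>
  simp only [om1, om2, sg, tau, tre, tim, hcoef, rdisc, disc, pw.1, pw.2, pc.1, pc.2, pd.1, pd.2,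
    h1.1, h1.2, h2.1, h2.2, h3.1, h3.2, h4.1, h4.2]

theorem continuous_period {X : Type*} [TopologicalSpace X] {u v σ : X → R2 → ℝ}
    {τ : X → R2 → ℂ} (hu : Continuous fun x : X × R2 => u x.1 x.2)
    (hv : Continuous fun x : X × R2 => v x.1 x.2) (hσ : Continuous fun x : X × R2 => σ x.1 x.2)
    (hτ : Continuous fun x : X × R2 => τ x.1 x.2) (q : R2) :
    Continuous fun x => period (u x) (v x) (σ x) (τ x) q := by
  have hα : Continuous fun x : X × R2 => alpha (u x.1) (v x.1) x.2 := by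
    refine intervalIntegral.continuous_parametric_intervalIntegral_of_continuous' ?_ 0 1
    have hs : Continuous fun z : (X × R2) × ℝ => (z.1.1, z.2 • z.1.2) := by fun_prop
    exact (((continuous_fst.comp continuous_snd).comp continuous_fst).mul (hu.comp hs)).add
      (((continuous_snd.comp continuous_snd).comp continuous_fst).mul (hv.comp hs))
  refine intervalIntegral.continuous_parametric_intervalIntegral_of_continuous' ?_ 0 1
  have hs : Continuous fun z : X × ℝ => (z.1, z.2 • q) := by fun_prop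
  exact (Complex.continuous_exp.comp (continuous_const.mul
      (Complex.continuous_ofReal.comp (hα.comp hs)))).mul
    ((continuous_const.mul (Complex.continuous_ofReal.comp (hσ.comp hs))).add
      (continuous_const.mul (hτ.comp hs)))

theorem continuous_curv {W : ℝ → R2 → ℝ} {a b : R2} {ε₀ : ℝ} (hφ : ContDiff ℝ ∞ φ)
    (hF : FlatFamily a b φ ε₀ W) {ε₁ : ℝ} (h0 : 0 ≤ ε₁) (h1 : ε₁ ≤ ε₀)
    (hlt : ∀ ε ∈ Icc (0 : ℝ) ε₁, Good (W ε) (cov1 ε φ (W ε)) (cov2 ε φ (W ε))) (q : R2) :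
    ContinuousOn (fun ε => period (om1 (W ε) (cov1 ε φ (W ε)) (cov2 ε φ (W ε)))
      (om2 (W ε) (cov1 ε φ (W ε)) (cov2 ε φ (W ε))) (sg (W ε) (cov1 ε φ (W ε)))
      (tau (W ε) (cov1 ε φ (W ε)) (cov2 ε φ (W ε))) q) (Icc 0 ε₁) := by
  rw [continuousOn_iff_continuous_domRestrict]
  have emb : Continuous fun x : Icc (0 : ℝ) ε₁ × R2 => ((x.1 : ℝ), x.2) := by fun_prop
  have mem : ∀ x : Icc (0 : ℝ) ε₁ × R2, ((x.1 : ℝ), x.2) ∈ Icc (0 : ℝ) ε₀ ×ˢ (univ : Set R2) :=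
    fun x => ⟨⟨x.1.2.1, x.1.2.2.trans h1⟩, mem_univ _⟩
  have c0 := hF.cont0.comp_continuous emb mem
  have cX := hF.contX.comp_continuous emb mem
  have cY := hF.contY.comp_continuous emb mem
  have cXX := hF.contXX.comp_continuous emb mem
  have cXY := hF.contXY.comp_continuous emb mem
  have smooth : ∀ e : Icc (0 : ℝ) ε₁, ContDiff ℝ ∞ (W e) :=
    fun e => hF.smooth _ ⟨e.2.1, e.2.2.trans h1⟩
  have sX : ∀ (e : Icc (0 : ℝ) ε₁), dX (φ + W e) = fun p => dX φ p + dX (W e) p :=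
    fun e => funext fun p => dX_add hφ (smooth e)
  have sY : ∀ (e : Icc (0 : ℝ) ε₁), dY (φ + W e) = fun p => dY φ p + dY (W e) p :=
    fun e => funext fun p => dY_add hφ (smooth e)
  have s1 := (contDiff_dX hφ).continuous.comp
    (continuous_snd (X := Icc (0 : ℝ) ε₁) (Y := R2))
  have s2 := (contDiff_dY hφ).continuous.comp
    (continuous_snd (X := Icc (0 : ℝ) ε₁) (Y := R2))
  have s11 := (contDiff_dX (contDiff_dX hφ)).continuous.comp
    (continuous_snd (X := Icc (0 : ℝ) ε₁) (Y := R2))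
  have s12 := (contDiff_dX (contDiff_dY hφ)).continuous.comp
    (continuous_snd (X := Icc (0 : ℝ) ε₁) (Y := R2))
  have hc : Continuous fun x : Icc (0 : ℝ) ε₁ × R2 => cov1 x.1 φ (W x.1) x.2 := by
    simp only [cov1, sX]
    exact ((continuous_subtype_val.comp continuous_fst).mul c0.rexp).mul (s1.add cX)
  have hd : Continuous fun x : Icc (0 : ℝ) ε₁ × R2 => cov2 x.1 φ (W x.1) x.2 := by
    simp only [cov2, sY]
    exact ((continuous_subtype_val.comp continuous_fst).mul c0.rexp).mul (s2.add cY)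
  have hcx : Continuous fun x : Icc (0 : ℝ) ε₁ × R2 => dX (cov1 x.1 φ (W x.1)) x.2 := by
    simp only [dX_cov1 hφ (smooth _), sX, dX_add (contDiff_dX hφ) (contDiff_dX (smooth _))]
    exact ((continuous_subtype_val.comp continuous_fst).mul c0.rexp).mul
      ((s11.add cXX).add (cX.mul (s1.add cX)))
  have hcy : Continuous fun x : Icc (0 : ℝ) ε₁ × R2 => dY (cov1 x.1 φ (W x.1)) x.2 := by
    simp only [dY_cov1 hφ (smooth _), sX, sY, dX_add (contDiff_dY hφ) (contDiff_dY (smooth _))]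
    exact ((continuous_subtype_val.comp continuous_fst).mul c0.rexp).mul
      ((s12.add cXY).add (cY.mul (s1.add cX)))
  have g1 : ∀ x : Icc (0 : ℝ) ε₁ × R2,
      1 - cov1 x.1 φ (W x.1) x.2 * cov1 x.1 φ (W x.1) x.2 ≠ 0 :=
    fun x => ((hlt x.1 x.1.2).one_sub_pos x.2).ne'
  have hm : Continuous fun x : Icc (0 : ℝ) ε₁ × R2 =>
      √(1 - cov1 x.1 φ (W x.1) x.2 * cov1 x.1 φ (W x.1) x.2) :=
    (continuous_const.sub (hc.mul hc)).sqrt
  have hm0 : ∀ x : Icc (0 : ℝ) ε₁ × R2,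
      √(1 - cov1 x.1 φ (W x.1) x.2 * cov1 x.1 φ (W x.1) x.2) ≠ 0 :=
    fun x => (Real.sqrt_pos.2 ((hlt x.1 x.1.2).one_sub_pos x.2)).ne'
  have hs : Continuous fun x : Icc (0 : ℝ) ε₁ × R2 =>
      √(disc (cov1 x.1 φ (W x.1)) (cov2 x.1 φ (W x.1)) x.2) :=
    ((continuous_const.sub (hc.mul hc)).sub (hd.mul hd)).sqrt
  have hr : Continuous fun x : Icc (0 : ℝ) ε₁ × R2 =>
      rdisc (cov1 x.1 φ (W x.1)) (cov2 x.1 φ (W x.1)) x.2 :=
    continuous_const.div hs fun x => (Real.sqrt_pos.2 ((hlt x.1 x.1.2).disc_pos x.2)).ne'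
  have hh := (hd.mul hr).div (continuous_const.sub (hc.mul hc)) g1
  have he : Continuous fun x : Icc (0 : ℝ) ε₁ × R2 => Real.exp (0 - W x.1 x.2) :=
    (continuous_const.sub c0).rexp
  exact continuous_period ((hh.mul hcx).sub (cY.mul hr)) ((hh.mul hcy).add (cX.mul hr))
    (he.mul hm)
    ((Complex.continuous_ofReal.comp (continuous_const.sub ((he.mul (hc.mul hd)).div hm hm0))).add
      ((Complex.continuous_ofReal.comp ((he.mul hs).div hm hm0)).mul continuous_const)) q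

theorem period_zero (q : R2) :
    period (om1 (fun _ => 0) (fun _ => 0) (fun _ => 0)) (om2 (fun _ => 0) (fun _ => 0) (fun _ => 0))
      (sg (fun _ => 0) (fun _ => 0)) (tau (fun _ => 0) (fun _ => 0) (fun _ => 0)) q
      = (q.1 : ℂ) + (q.2 : ℂ) * I := by
  have : ∀ p : R2, alpha (om1 (fun _ => 0) (fun _ => 0) (fun _ => 0))
      (om2 (fun _ => 0) (fun _ => 0) (fun _ => 0)) p = 0 := fun p => by
    simp [alpha, om1, om2, dX_const, dY_const, hcoef]
  simp [period, this, sg, tau, tre, tim, disc]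

theorem exists_good {W : ℝ → R2 → ℝ} {a b : R2} {ε₀ : ℝ} (hab : det2 a b ≠ 0)
    (hφ : ContDiff ℝ ∞ φ) (pφ : Periodic2 a b φ) (hpos : 0 < ε₀)
    (hsm : ∀ ε ∈ Icc 0 ε₀, ContDiff ℝ ∞ (W ε)) (hper : ∀ ε ∈ Icc 0 ε₀, Periodic2 a b (W ε))
    (k0 : ContinuousOn (fun x : ℝ × R2 => W x.1 x.2) (Icc 0 ε₀ ×ˢ univ))
    (kX : ContinuousOn (fun x : ℝ × R2 => dX (W x.1) x.2) (Icc 0 ε₀ ×ˢ univ))
    (kY : ContinuousOn (fun x : ℝ × R2 => dY (W x.1) x.2) (Icc 0 ε₀ ×ˢ univ)) :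
    ∃ ε₁, 0 < ε₁ ∧ ε₁ ≤ ε₀ ∧
      ∀ ε ∈ Icc (0 : ℝ) ε₁, Good (W ε) (cov1 ε φ (W ε)) (cov2 ε φ (W ε)) := by
  set g : ℝ × R2 → ℝ := fun x => Real.exp (W x.1 x.2) ^ 2 *
    ((dX φ x.2 + dX (W x.1) x.2) ^ 2 + (dY φ x.2 + dY (W x.1) x.2) ^ 2) with hg
  have hmap : ∀ x : ℝ × R2, x.1 ∈ Icc 0 ε₀ →
      (x.1, x.2) ∈ Icc 0 ε₀ ×ˢ (univ : Set R2) := fun x hx => ⟨hx, mem_univ _⟩
  have hgc : ContinuousOn g (Icc 0 ε₀ ×ˢ univ) :=
    ((k0.rexp).pow 2).mul
      (((((contDiff_dX hφ).continuous.comp continuous_snd).continuousOn.add kX).pow 2).add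
        ((((contDiff_dY hφ).continuous.comp continuous_snd).continuousOn.add kY).pow 2))
  have hcomp : ContinuousOn (fun x : ℝ × R2 => g (x.1, x.2.1 • a + x.2.2 • b))
      (Icc 0 ε₀ ×ˢ Icc (0 : R2) (1, 1)) :=
    hgc.comp (by fun_prop) fun x hx => ⟨hx.1, mem_univ _⟩
  obtain ⟨M, hM⟩ := ((isCompact_Icc.prod isCompact_Icc).image_of_continuousOn hcomp).bddAbove
  have hb : ∀ ε ∈ Icc (0 : ℝ) ε₀, ∀ q, g (ε, q) ≤ M := fun ε hε q => by
    have hp : Periodic2 a b fun q => g (ε, q) := by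
      have h0 := hper ε hε
      have h1 := periodic2_dX (hsm ε hε) h0
      have h2 := periodic2_dY (hsm ε hε) h0
      have h3 := periodic2_dX hφ pφ
      have h4 := periodic2_dY hφ pφ
      exact ⟨fun p => by simp only [hg, h0.1, h1.1, h2.1, h3.1, h4.1],
        fun p => by simp only [hg, h0.2, h1.2, h2.2, h3.2, h4.2]⟩
    obtain ⟨y, hy, he⟩ := periodic_range hab hp q
    exact he ▸ hM ⟨(ε, y), ⟨hε, hy⟩, rfl⟩
  refine ⟨min ε₀ (1 / (|M| + 1)), lt_min hpos (by positivity), min_le_left _ _, fun ε hε => ?_⟩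
  have hε₀ : ε ∈ Icc (0 : ℝ) ε₀ := ⟨hε.1, hε.2.trans (min_le_left _ _)⟩
  have hw := hsm ε hε₀
  refine ⟨hw, contDiff_cov1 hφ hw, contDiff_cov2 hφ hw, fun q => ?_⟩
  have h1 := hb ε hε₀ q
  have h2 : ε * (|M| + 1) ≤ 1 :=
    (le_div_iff₀ (by positivity)).1 (hε.2.trans (min_le_right _ _))
  have e : cov1 ε φ (W ε) q * cov1 ε φ (W ε) q + cov2 ε φ (W ε) q * cov2 ε φ (W ε) q
      = ε ^ 2 * g (ε, q) := by
    simp only [cov1, cov2, hg]
    rw [show dX (φ + W ε) q = dX φ q + dX (W ε) q from dX_add hφ hw,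
      show dY (φ + W ε) q = dY φ q + dY (W ε) q from dY_add hφ hw]
    ring
  have h3 : ε ≤ 1 := by nlinarith [hε.1, abs_nonneg M]
  have h4 : ε ^ 2 * g (ε, q) ≤ ε ^ 2 * |M| :=
    mul_le_mul_of_nonneg_left (h1.trans (le_abs_self M)) (sq_nonneg ε)
  rw [e]
  nlinarith [mul_le_of_le_one_left (mul_nonneg hε.1 (abs_nonneg M)) h3, hε.1]

end

end Vale.Agent.P205
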