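import Vale.Agent.P205.Family

/-!
A periodic one-form whose differential has a sign is closed; consequently a solution of the flatness
equation up to an additive constant solves it exactly.
-/

namespace Vale.Agent.P205

open scoped ContDiff
open Set intervalIntegral

noncomputable section

theorem segment_integral_eq_zero {g : R2 → ℝ} (hg : ContDiff ℝ ∞ g) {c : R2}
    (hp : ∀ p, g (p + c) = g p) (q : R2) :
    ∫ t in (0 : ℝ)..1, fderiv ℝ g (q + t • c) c = 0 := by
  have h : ∀ t : ℝ, HasDerivAt (fun t : ℝ => g (q + t • c)) (fderiv ℝ g (q + t • c) c) t :=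
    fun t => (hg.differentiable (by simp) _).hasFDerivAt.comp_hasDerivAt t
      (by simpa using ((hasDerivAt_id t).smul_const c).const_add q)
  have hc := hg.continuous_fderiv (by simp)
  rw [integral_eq_sub_of_hasDerivAt (fun t _ => h t)
    ((by fun_prop : Continuous fun t : ℝ => fderiv ℝ g (q + t • c) c).intervalIntegrable _ _)]
  simp [hp]

theorem const_eq_zero_of_periodic {a b : R2} (hab : det2 a b ≠ 0) {u v r : R2 → ℝ} {k : ℝ}
    (hu : ContDiff ℝ ∞ u) (hv : ContDiff ℝ ∞ v) (hr : Continuous r) (hr0 : ∀ p, 0 < r p)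
    (pu : Periodic2 a b u) (pv : Periodic2 a b v)
    (h : ∀ p, dX v p - dY u p = k * r p) : k = 0 := by
  set g₁ : R2 → ℝ := fun p => b.1 * u p + b.2 * v p with hg₁
  set g₂ : R2 → ℝ := fun p => a.1 * u p + a.2 * v p with hg₂
  have hg₁s : ContDiff ℝ ∞ g₁ := (contDiff_const.mul hu).add (contDiff_const.mul hv)
  have hg₂s : ContDiff ℝ ∞ g₂ := (contDiff_const.mul hu).add (contDiff_const.mul hv)
  have key : ∀ p, fderiv ℝ g₁ p a - fderiv ℝ g₂ p b = det2 a b * (k * r p) := fun p => by
    have hu' := hasFDerivAt_smooth hu p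
    have hv' := hasFDerivAt_smooth hv p
    have e : ∀ (L : R2 →L[ℝ] ℝ) (x : R2), L x = x.1 * L (1, 0) + x.2 * L (0, 1) := fun L x => by
      rw [← smul_eq_mul, ← smul_eq_mul, ← map_smul, ← map_smul, ← map_add]; simp
    rw [hg₁, hg₂, ((hu'.const_mul b.1).fun_add (hv'.const_mul b.2)).fderiv,
      ((hu'.const_mul a.1).fun_add (hv'.const_mul a.2)).fderiv, ← h, dX, dY]
    simp only [add_apply, smul_apply, smul_eq_mul]
    rw [e _ a, e (fderiv ℝ v p) a, e (fderiv ℝ u p) b, e (fderiv ℝ v p) b, det2]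
    ring
  have c1 := hg₁s.continuous_fderiv (by simp)
  have c2 := hg₂s.continuous_fderiv (by simp)
  have i1 : ∫ t in (0 : ℝ)..1, ∫ s in (0 : ℝ)..1, fderiv ℝ g₁ (t • b + s • a) a = 0 := by
    have ha : ∀ p, g₁ (p + a) = g₁ p := fun p => by simp only [hg₁, pu.1, pv.1]
    simp only [segment_integral_eq_zero hg₁s ha, integral_zero]
  have i2 : ∫ t in (0 : ℝ)..1, ∫ s in (0 : ℝ)..1, fderiv ℝ g₂ (t • b + s • a) b = 0 := by
    rw [MeasureTheory.intervalIntegral_intervalIntegral_swap]
    swap
    · exact ((by fun_prop : Continuous fun z : ℝ × ℝ => fderiv ℝ g₂ (z.1 • b + z.2 • a) b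
        ).continuousOn.integrableOn_compact (isCompact_uIcc.prod isCompact_uIcc)).mono_set
          (Set.prod_mono uIoc_subset_uIcc uIoc_subset_uIcc)
    refine (integral_congr fun s _ => ?_).trans integral_zero
    simp only [add_comm _ (s • a)]
    exact segment_integral_eq_zero hg₂s (fun p => by simp only [hg₂, pu.2, pv.2]) _
  have hcr : Continuous fun z : ℝ × ℝ => r (z.1 • b + z.2 • a) := by fun_prop
  have hinner : ∀ t : ℝ, 0 < ∫ s in (0 : ℝ)..1, r (t • b + s • a) := fun t =>
    intervalIntegral_pos_of_pos ((hcr.comp (continuous_const.prodMk continuous_id)).intervalIntegrable _ _)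
      (fun _ => hr0 _) one_pos
  have hpos : 0 < ∫ t in (0 : ℝ)..1, ∫ s in (0 : ℝ)..1, r (t • b + s • a) :=
    intervalIntegral_pos_of_pos
      ((continuous_parametric_intervalIntegral_of_continuous' hcr 0 1).intervalIntegrable _ _)
      hinner one_pos
  have hzero : det2 a b * k * ∫ t in (0 : ℝ)..1, ∫ s in (0 : ℝ)..1, r (t • b + s • a) = 0 := by
    have hc1 : Continuous fun z : ℝ × ℝ => fderiv ℝ g₁ (z.1 • b + z.2 • a) a := by fun_prop
    have hc2 : Continuous fun z : ℝ × ℝ => fderiv ℝ g₂ (z.1 • b + z.2 • a) b := by fun_prop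
    have e : ∀ t : ℝ, det2 a b * k * ∫ s in (0 : ℝ)..1, r (t • b + s • a) =
        (∫ s in (0 : ℝ)..1, fderiv ℝ g₁ (t • b + s • a) a)
          - ∫ s in (0 : ℝ)..1, fderiv ℝ g₂ (t • b + s • a) b := fun t => by
      have d1 : Continuous fun s : ℝ => fderiv ℝ g₁ (t • b + s • a) a := by fun_prop
      have d2 : Continuous fun s : ℝ => fderiv ℝ g₂ (t • b + s • a) b := by fun_prop
      rw [← integral_sub (d1.intervalIntegrable _ _) (d2.intervalIntegrable _ _),
        ← integral_const_mul]
      exact integral_congr fun s _ => by simp only [key]; ring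
    rw [← integral_const_mul, integral_congr fun t _ => e t,
      integral_sub ((continuous_parametric_intervalIntegral_of_continuous' hc1 0 1).intervalIntegrable _ _)
        ((continuous_parametric_intervalIntegral_of_continuous' hc2 0 1).intervalIntegrable _ _),
      i1, i2, sub_zero]
  exact (mul_eq_zero.1 ((mul_eq_zero.1 hzero).resolve_right hpos.ne')).resolve_left hab

/-- A solution up to an additive constant solves the flatness equation. -/
theorem flatEq_of_const {a b : R2} (hab : det2 a b ≠ 0) {ε k : ℝ} {φ w : R2 → ℝ}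
    (hφ : ContDiff ℝ ∞ φ) (hw : ContDiff ℝ ∞ w) (pφ : Periodic2 a b φ) (pw : Periodic2 a b w)
    (hgood : Good w (cov1 ε φ w) (cov2 ε φ w))
    (heq : ∀ p, lap w p + k = ε ^ 2 * Real.exp (2 * w p) *
      (lap w p * ((dX (φ + w) p) ^ 2 + (dY (φ + w) p) ^ 2) + detHess w (φ + w) p)) (p : R2) :
    FlatEq ε φ w p := by
  obtain ⟨pc, pd⟩ := periodic2_cov (ε := ε) hφ hw pφ pw
  obtain ⟨p1, p2, -, -⟩ := periodic2_curv hgood pw pc pd
  have hk : (-k) = 0 := const_eq_zero_of_periodic hab hgood.contDiff_om1 hgood.contDiff_om2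
    (hgood.contDiff_rdisc.continuous.pow 3)
    (fun q => pow_pos (div_pos one_pos (Real.sqrt_pos.2 (hgood.disc_pos q))) 3) p1 p2 fun q => by
      rw [hgood.curvature, resid_cov hφ hw, ← heq q]
      simp only [Pi.pow_apply]
      ring
  have := heq p
  rw [FlatEq]
  linarith

end

end Vale.Agent.P205
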