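import Vale.Agent.P205.Defs

/-!
Rules for the two partial derivatives of smooth functions on the plane.
-/

namespace Vale.Agent.P205

open scoped ContDiff
open Set

noncomputable section

variable {f g : R2 → ℝ} {p : R2}

theorem contDiff_dX (hf : ContDiff ℝ ∞ f) : ContDiff ℝ ∞ (dX f) :=
  ((contDiff_infty_iff_fderiv.1 hf).2).clm_apply contDiff_const

theorem contDiff_dY (hf : ContDiff ℝ ∞ f) : ContDiff ℝ ∞ (dY f) :=
  ((contDiff_infty_iff_fderiv.1 hf).2).clm_apply contDiff_const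

theorem hasFDerivAt_smooth (hf : ContDiff ℝ ∞ f) (p : R2) : HasFDerivAt f (fderiv ℝ f p) p :=
  (hf.differentiable (by simp) p).hasFDerivAt

theorem dX_add (hf : ContDiff ℝ ∞ f) (hg : ContDiff ℝ ∞ g) :
    dX (fun q => f q + g q) p = dX f p + dX g p := by
  simp [dX, ((hasFDerivAt_smooth hf p).fun_add (hasFDerivAt_smooth hg p)).fderiv]

theorem dY_add (hf : ContDiff ℝ ∞ f) (hg : ContDiff ℝ ∞ g) :
    dY (fun q => f q + g q) p = dY f p + dY g p := by
  simp [dY, ((hasFDerivAt_smooth hf p).fun_add (hasFDerivAt_smooth hg p)).fderiv]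

theorem dX_sub (hf : ContDiff ℝ ∞ f) (hg : ContDiff ℝ ∞ g) :
    dX (fun q => f q - g q) p = dX f p - dX g p := by
  simp [dX, ((hasFDerivAt_smooth hf p).fun_sub (hasFDerivAt_smooth hg p)).fderiv]

theorem dY_sub (hf : ContDiff ℝ ∞ f) (hg : ContDiff ℝ ∞ g) :
    dY (fun q => f q - g q) p = dY f p - dY g p := by
  simp [dY, ((hasFDerivAt_smooth hf p).fun_sub (hasFDerivAt_smooth hg p)).fderiv]

theorem dX_mul (hf : ContDiff ℝ ∞ f) (hg : ContDiff ℝ ∞ g) :
    dX (fun q => f q * g q) p = dX f p * g p + f p * dX g p := by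
  simp [dX, ((hasFDerivAt_smooth hf p).fun_mul (hasFDerivAt_smooth hg p)).fderiv]; ring

theorem dY_mul (hf : ContDiff ℝ ∞ f) (hg : ContDiff ℝ ∞ g) :
    dY (fun q => f q * g q) p = dY f p * g p + f p * dY g p := by
  simp [dY, ((hasFDerivAt_smooth hf p).fun_mul (hasFDerivAt_smooth hg p)).fderiv]; ring

theorem dX_const (c : ℝ) : dX (fun _ => c) p = 0 := by simp [dX]

theorem dY_const (c : ℝ) : dY (fun _ => c) p = 0 := by simp [dY]

theorem dX_exp (hf : ContDiff ℝ ∞ f) :
    dX (fun q => Real.exp (f q)) p = Real.exp (f p) * dX f p := by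
  simp [dX, (hasFDerivAt_smooth hf p).exp.fderiv]

theorem dY_exp (hf : ContDiff ℝ ∞ f) :
    dY (fun q => Real.exp (f q)) p = Real.exp (f p) * dY f p := by
  simp [dY, (hasFDerivAt_smooth hf p).exp.fderiv]

theorem dX_sqrt (hf : ContDiff ℝ ∞ f) (h : f p ≠ 0) :
    dX (fun q => √(f q)) p = dX f p / (2 * √(f p)) := by
  simp [dX, ((hasFDerivAt_smooth hf p).sqrt h).fderiv]; ring

theorem dY_sqrt (hf : ContDiff ℝ ∞ f) (h : f p ≠ 0) :
    dY (fun q => √(f q)) p = dY f p / (2 * √(f p)) := by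
  simp [dY, ((hasFDerivAt_smooth hf p).sqrt h).fderiv]; ring

theorem dX_div (hf : ContDiff ℝ ∞ f) (hg : ContDiff ℝ ∞ g) (h : g p ≠ 0) :
    dX (fun q => f q / g q) p = (dX f p * g p - f p * dX g p) / g p ^ 2 := by
  have h' : HasFDerivAt (fun q => (g q)⁻¹) (-(g p ^ 2)⁻¹ • fderiv ℝ g p) p :=
    (hasDerivAt_inv h).comp_hasFDerivAt p (hasFDerivAt_smooth hg p)
  simp_rw [div_eq_mul_inv]
  simp [dX, ((hasFDerivAt_smooth hf p).fun_mul h').fderiv]
  field_simp
  ring

theorem dY_div (hf : ContDiff ℝ ∞ f) (hg : ContDiff ℝ ∞ g) (h : g p ≠ 0) :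
    dY (fun q => f q / g q) p = (dY f p * g p - f p * dY g p) / g p ^ 2 := by
  have h' : HasFDerivAt (fun q => (g q)⁻¹) (-(g p ^ 2)⁻¹ • fderiv ℝ g p) p :=
    (hasDerivAt_inv h).comp_hasFDerivAt p (hasFDerivAt_smooth hg p)
  simp_rw [div_eq_mul_inv]
  simp [dY, ((hasFDerivAt_smooth hf p).fun_mul h').fderiv]
  field_simp
  ring

theorem dY_dX (hf : ContDiff ℝ ∞ f) : dY (dX f) p = dX (dY f) p := by
  have h := hf.contDiffAt (x := p) |>.isSymmSndFDerivAt (by simp; exact WithTop.coe_le_coe.2 le_top)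
  have hd : DifferentiableAt ℝ (fderiv ℝ f) p :=
    ((contDiff_infty_iff_fderiv.1 hf).2.differentiable (by simp) p)
  show fderiv ℝ (fun q => fderiv ℝ f q (1, 0)) p (0, 1) = fderiv ℝ (fun q => fderiv ℝ f q (0, 1)) p (1, 0)
  rw [fderiv_clm_apply hd (differentiableAt_const _), fderiv_clm_apply hd (differentiableAt_const _)]
  simp [h.eq]

theorem periodic2_dX {a b : R2} (hf : ContDiff ℝ ∞ f) (h : Periodic2 a b f) :
    Periodic2 a b (dX f) := by
  constructor <;> intro p <;>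
    · simp only [dX]
      rw [← fderiv_comp_add_right]
      congr 2
      funext q
      first | exact h.1 q | exact h.2 q

theorem periodic2_dY {a b : R2} (hf : ContDiff ℝ ∞ f) (h : Periodic2 a b f) :
    Periodic2 a b (dY f) := by
  constructor <;> intro p <;>
    · simp only [dY]
      rw [← fderiv_comp_add_right]
      congr 2
      funext q
      first | exact h.1 q | exact h.2 q

end

end Vale.Agent.P205
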