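import Vale.Agent.P205.Uniformized
import Vale.Agent.P205.GaussBonnet
import Vale.Agent.P205.Flat.Main

/-!
Every smooth doubly periodic metric on the plane has a smooth periodic isometric map to four-space.
-/

namespace Vale.Agent.P205

open scoped ContDiff
open Set

noncomputable section

theorem exists_flatFamily {a b : R2} (hab : det2 a b ≠ 0) {φ : R2 → ℝ} (hφ : ContDiff ℝ ∞ φ)
    (hper : Periodic2 a b φ) : ∃ ε₀ w, FlatFamily a b φ ε₀ w := by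
  obtain ⟨ε₀, w, h⟩ := exists_flatFamily' hab hφ hper
  obtain ⟨ε₁, h1, hle, hgood⟩ :=
    exists_good hab hφ hper h.pos h.smooth h.periodic h.cont0 h.contX h.contY
  have hs : Icc (0 : ℝ) ε₁ ×ˢ (univ : Set R2) ⊆ Icc 0 ε₀ ×ˢ univ :=
    prod_mono (Icc_subset_Icc_right hle) Subset.rfl
  refine ⟨ε₁, w, h1, h.zero, fun ε hε => h.smooth ε ⟨hε.1, hε.2.trans hle⟩,
    fun ε hε => h.periodic ε ⟨hε.1, hε.2.trans hle⟩, fun ε hε => ?_, h.cont0.mono hs,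
    h.contX.mono hs, h.contY.mono hs, h.contXX.mono hs, h.contXY.mono hs, h.contYY.mono hs⟩
  have hε₀ : ε ∈ Icc 0 ε₀ := ⟨hε.1, hε.2.trans hle⟩
  obtain ⟨k, hk⟩ := h.flatUpTo ε hε₀
  exact flatEq_of_const hab hφ (h.smooth ε hε₀) hper (h.periodic ε hε₀) (hgood ε hε) hk

theorem exists_isometric_map {E F G : R2 → ℝ} (hE : ContDiff ℝ ∞ E) (hF : ContDiff ℝ ∞ F)
    (hG : ContDiff ℝ ∞ G) (pE : Periodic2 (1, 0) (0, 1) E) (pF : Periodic2 (1, 0) (0, 1) F)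
    (pG : Periodic2 (1, 0) (0, 1) G) (posE : ∀ p, 0 < E p) (posD : ∀ p, F p ^ 2 < E p * G p) :
    ∃ X : R2 → EuclideanSpace ℝ (Fin 4), ContDiff ℝ ∞ X ∧ Periodic2 (1, 0) (0, 1) X ∧
      ∀ p v, ‖fderiv ℝ X p v‖ ^ 2 = E p * v.1 ^ 2 + 2 * F p * v.1 * v.2 + G p * v.2 ^ 2 :=
  immersion_of_flatFamily hE hF hG pE pF pG posE posD fun _ _ _ hab hφ hper =>
    exists_flatFamily hab hφ hper

end

end Vale.Agent.P205
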