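import Vale.Agent.P205.Assemble
import Vale.Agent.P205.Unif.Main

/-!
Reduction of the immersion theorem for periodic metrics to the flatness equation.
-/

namespace Vale.Agent.P205

open scoped ContDiff

noncomputable section

theorem immersion_of_flatFamily {E F G : R2 → ℝ} (hE : ContDiff ℝ ∞ E) (hF : ContDiff ℝ ∞ F)
    (hG : ContDiff ℝ ∞ G) (pE : Periodic2 (1, 0) (0, 1) E) (pF : Periodic2 (1, 0) (0, 1) F)
    (pG : Periodic2 (1, 0) (0, 1) G) (posE : ∀ p, 0 < E p) (posD : ∀ p, F p ^ 2 < E p * G p)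
    (hflat : ∀ (a b : R2) (φ : R2 → ℝ), det2 a b ≠ 0 → ContDiff ℝ ∞ φ → Periodic2 a b φ →
      ∃ ε₀ w, FlatFamily a b φ ε₀ w) :
    ∃ X : R2 → EuclideanSpace ℝ (Fin 4), ContDiff ℝ ∞ X ∧ Periodic2 (1, 0) (0, 1) X ∧
      ∀ p v, ‖fderiv ℝ X p v‖ ^ 2 = E p * v.1 ^ 2 + 2 * F p * v.1 * v.2 + G p * v.2 ^ 2 :=
  assemble (Unif.exists_isothermal hE hF hG pE pF pG posE posD) hflat

end

end Vale.Agent.P205
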